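import Vale.Agent.P355.H41.C27.Good
import Vale.Agent.P355.H41.C27.Ids
import Vale.Agent.P355.H41.C27.B0
import Vale.Agent.P355.H41.C27.B1
import Vale.Agent.P355.H41.C27.B2
import Vale.Agent.P355.H41.C27.B3
import Vale.Agent.P355.H41.C27.B4
import Vale.Agent.P355.H41.C27.B5
import Vale.Agent.P355.H41.C27.B6
import Vale.Agent.P355.H41.C27.B7
import Vale.Agent.P355.H41.C27.P0
import Vale.Agent.P355.H41.C27.P1
import Vale.Agent.P355.H41.C27.P2
import Vale.Agent.P355.H41.C27.P3
import Vale.Agent.P355.H41.C27.P4
import Vale.Agent.P355.H41.C27.P5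
import Vale.Agent.P355.H41.C27.P6
import Vale.Agent.P355.H41.C27.P7
import Vale.Agent.P355.H41.C27.P8
import Vale.Agent.P355.H41.C27.P9
import Vale.Agent.P355.H41.C27.P10
import Vale.Agent.P355.H41.C27.P11
import Vale.Agent.P355.H41.C27.P12
import Vale.Agent.P355.H41.C27.P13
import Vale.Agent.P355.H41.C27.P14
import Vale.Agent.P355.H41.C27.R0
import Vale.Agent.P355.H41.C27.R1
import Vale.Agent.P355.H41.C27.R2
import Vale.Agent.P355.H41.C27.R3
import Vale.Agent.P355.H41.C27.R4
import Vale.Agent.P355.H41.C27.R5

namespace Vale.Agent.P355.H41.C27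

open Vale.Agent.P355.H41.F7 Vale.Agent.P355.H138 Vale.Agent.P355 

/-- the blocks. -/
def bs : List BD := [bd0, bd1, bd2, bd3, bd4, bd5, bd6, bd7]

/-- the blocks. -/
def es : List BE := [be0, be1, be2, be3, be4, be5, be6, be7]

/-- the relations. -/
def ch : List (List ℕ) := [l0, l1, l2, l3, l4, l5, l6, l7, l8, l9, l10, l11, l12, l13, l14, l15, l16, l17, l18, l19, l20, l21, l22, l23, l24, l25, l26, l27, l28, l29, l30, l31, l32, l33, l34, l35, l36, l37, l38, l39, l40, l41, l42]

theorem es_ok : esCk 56 48 bs es = true := by decide +kernel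

theorem bnd_ok : bndCk 56 27 es = true := by decide +kernel

theorem fin_ok : finCk 63 56 48 27 fl es (fun x y => nth (nthL idt y) x) ch 4869 16 1966584492 = true := by
  decide +kernel

theorem bs_ok : ∀ b ∈ bs, b.Ok 48 27 nu inv := by
  intro b hb
  simp only [bs, List.mem_cons, List.not_mem_nil, or_false] at hb
  rcases hb with rfl | rfl | rfl | rfl | rfl | rfl | rfl | rfl
  · exact ok0
  · exact ok1
  · exact ok2
  · exact ok3
  · exact ok4
  · exact ok5
  · exact ok6
  · exact ok7

theorem ch_ok {B : Fin 7 → M6} (hB : IsMUBs B) : ∀ l ∈ ch, ∀ R ∈ l.map rowRL,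
    stV (fun i => vlc 8 B (cls i)) R.2.2 = 0 := by
  intro l hl
  simp only [ch, List.mem_cons, List.not_mem_nil, or_false] at hl
  rcases hl with rfl | rfl | rfl | rfl | rfl | rfl | rfl | rfl | rfl | rfl | rfl | rfl | rfl | rfl | rfl | rfl | rfl | rfl | rfl | rfl | rfl | rfl | rfl | rfl | rfl | rfl | rfl | rfl | rfl | rfl | rfl | rfl | rfl | rfl | rfl | rfl | rfl | rfl | rfl | rfl | rfl | rfl | rfl
  · exact rowsCk_sound hB good r0
  · exact rowsCk_sound hB good r1
  · exact rowsCk_sound hB good r2
  · exact rowsCk_sound hB good r3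
  · exact rowsCk_sound hB good r4
  · exact rowsCk_sound hB good r5
  · exact rowsCk_sound hB good r6
  · exact rowsCk_sound hB good r7
  · exact rowsCk_sound hB good r8
  · exact rowsCk_sound hB good r9
  · exact rowsCk_sound hB good r10
  · exact rowsCk_sound hB good r11
  · exact rowsCk_sound hB good r12
  · exact rowsCk_sound hB good r13
  · exact rowsCk_sound hB good r14
  · exact rowsCk_sound hB good r15
  · exact rowsCk_sound hB good r16
  · exact rowsCk_sound hB good r17
  · exact rowsCk_sound hB good r18
  · exact rowsCk_sound hB good r19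
  · exact rowsCk_sound hB good r20
  · exact rowsCk_sound hB good r21
  · exact rowsCk_sound hB good r22
  · exact rowsCk_sound hB good r23
  · exact rowsCk_sound hB good r24
  · exact rowsCk_sound hB good r25
  · exact rowsCk_sound hB good r26
  · exact rowsCk_sound hB good r27
  · exact rowsCk_sound hB good r28
  · exact rowsCk_sound hB good r29
  · exact rowsCk_sound hB good r30
  · exact rowsCk_sound hB good r31
  · exact rowsCk_sound hB good r32
  · exact rowsCk_sound hB good r33
  · exact rowsCk_sound hB good r34
  · exact rowsCk_sound hB good r35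
  · exact rowsCk_sound hB good r36
  · exact rowsCk_sound hB good r37
  · exact rowsCk_sound hB good r38
  · exact rowsCk_sound hB good r39
  · exact rowsCk_sound hB good r40
  · exact rowsCk_sound hB good r41
  · exact rowsCk_sound hB good r42

theorem pr_ok {B : Fin 7 → M6} (hB : IsMUBs B) : ∀ y < 27, ∀ x ≤ y, ∀ j < 48,
    vJ lab 2 B 4 gs fl x y j
      = (mlt fl x y : ℝ) * vlc 8 B (cls (dgt 16 (nth (nthL idt y) x) j)) := by
  intro y hy
  interval_cases y
  · intro x hx
    exact prSeg_sound hB rfl lab_len lab_lt gs_ok good fl_ok (by norm_num) (by norm_num) p0_0 x (by omega) (by omega)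
  · intro x hx
    exact prSeg_sound hB rfl lab_len lab_lt gs_ok good fl_ok (by norm_num) (by norm_num) p1_0 x (by omega) (by omega)
  · intro x hx
    exact prSeg_sound hB rfl lab_len lab_lt gs_ok good fl_ok (by norm_num) (by norm_num) p2_0 x (by omega) (by omega)
  · intro x hx
    exact prSeg_sound hB rfl lab_len lab_lt gs_ok good fl_ok (by norm_num) (by norm_num) p3_0 x (by omega) (by omega)
  · intro x hx
    exact prSeg_sound hB rfl lab_len lab_lt gs_ok good fl_ok (by norm_num) (by norm_num) p4_0 x (by omega) (by omega)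
  · intro x hx
    exact prSeg_sound hB rfl lab_len lab_lt gs_ok good fl_ok (by norm_num) (by norm_num) p5_0 x (by omega) (by omega)
  · intro x hx
    rcases Nat.lt_or_ge x 6 with h | h
    · exact prSeg_sound hB rfl lab_len lab_lt gs_ok good fl_ok (by norm_num) (by norm_num) p6_0 x (by omega) (by omega)
    exact prSeg_sound hB rfl lab_len lab_lt gs_ok good fl_ok (by norm_num) (by norm_num) p6_6 x (by omega) (by omega)
  · intro x hx
    rcases Nat.lt_or_ge x 6 with h | h
    · exact prSeg_sound hB rfl lab_len lab_lt gs_ok good fl_ok (by norm_num) (by norm_num) p7_0 x (by omega) (by omega)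
    exact prSeg_sound hB rfl lab_len lab_lt gs_ok good fl_ok (by norm_num) (by norm_num) p7_6 x (by omega) (by omega)
  · intro x hx
    rcases Nat.lt_or_ge x 6 with h | h
    · exact prSeg_sound hB rfl lab_len lab_lt gs_ok good fl_ok (by norm_num) (by norm_num) p8_0 x (by omega) (by omega)
    exact prSeg_sound hB rfl lab_len lab_lt gs_ok good fl_ok (by norm_num) (by norm_num) p8_6 x (by omega) (by omega)
  · intro x hx
    rcases Nat.lt_or_ge x 6 with h | h
    · exact prSeg_sound hB rfl lab_len lab_lt gs_ok good fl_ok (by norm_num) (by norm_num) p9_0 x (by omega) (by omega)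
    exact prSeg_sound hB rfl lab_len lab_lt gs_ok good fl_ok (by norm_num) (by norm_num) p9_6 x (by omega) (by omega)
  · intro x hx
    rcases Nat.lt_or_ge x 6 with h | h
    · exact prSeg_sound hB rfl lab_len lab_lt gs_ok good fl_ok (by norm_num) (by norm_num) p10_0 x (by omega) (by omega)
    exact prSeg_sound hB rfl lab_len lab_lt gs_ok good fl_ok (by norm_num) (by norm_num) p10_6 x (by omega) (by omega)
  · intro x hx
    rcases Nat.lt_or_ge x 6 with h | h
    · exact prSeg_sound hB rfl lab_len lab_lt gs_ok good fl_ok (by norm_num) (by norm_num) p11_0 x (by omega) (by omega)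
    exact prSeg_sound hB rfl lab_len lab_lt gs_ok good fl_ok (by norm_num) (by norm_num) p11_6 x (by omega) (by omega)
  · intro x hx
    rcases Nat.lt_or_ge x 6 with h | h
    · exact prSeg_sound hB rfl lab_len lab_lt gs_ok good fl_ok (by norm_num) (by norm_num) p12_0 x (by omega) (by omega)
    rcases Nat.lt_or_ge x 12 with h | h
    · exact prSeg_sound hB rfl lab_len lab_lt gs_ok good fl_ok (by norm_num) (by norm_num) p12_6 x (by omega) (by omega)
    exact prSeg_sound hB rfl lab_len lab_lt gs_ok good fl_ok (by norm_num) (by norm_num) p12_12 x (by omega) (by omega)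
  · intro x hx
    rcases Nat.lt_or_ge x 6 with h | h
    · exact prSeg_sound hB rfl lab_len lab_lt gs_ok good fl_ok (by norm_num) (by norm_num) p13_0 x (by omega) (by omega)
    rcases Nat.lt_or_ge x 12 with h | h
    · exact prSeg_sound hB rfl lab_len lab_lt gs_ok good fl_ok (by norm_num) (by norm_num) p13_6 x (by omega) (by omega)
    exact prSeg_sound hB rfl lab_len lab_lt gs_ok good fl_ok (by norm_num) (by norm_num) p13_12 x (by omega) (by omega)
  · intro x hx
    rcases Nat.lt_or_ge x 6 with h | h
    · exact prSeg_sound hB rfl lab_len lab_lt gs_ok good fl_ok (by norm_num) (by norm_num) p14_0 x (by omega) (by omega)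
    rcases Nat.lt_or_ge x 12 with h | h
    · exact prSeg_sound hB rfl lab_len lab_lt gs_ok good fl_ok (by norm_num) (by norm_num) p14_6 x (by omega) (by omega)
    exact prSeg_sound hB rfl lab_len lab_lt gs_ok good fl_ok (by norm_num) (by norm_num) p14_12 x (by omega) (by omega)
  · intro x hx
    rcases Nat.lt_or_ge x 6 with h | h
    · exact prSeg_sound hB rfl lab_len lab_lt gs_ok good fl_ok (by norm_num) (by norm_num) p15_0 x (by omega) (by omega)
    rcases Nat.lt_or_ge x 12 with h | h
    · exact prSeg_sound hB rfl lab_len lab_lt gs_ok good fl_ok (by norm_num) (by norm_num) p15_6 x (by omega) (by omega)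
    exact prSeg_sound hB rfl lab_len lab_lt gs_ok good fl_ok (by norm_num) (by norm_num) p15_12 x (by omega) (by omega)
  · intro x hx
    rcases Nat.lt_or_ge x 6 with h | h
    · exact prSeg_sound hB rfl lab_len lab_lt gs_ok good fl_ok (by norm_num) (by norm_num) p16_0 x (by omega) (by omega)
    rcases Nat.lt_or_ge x 12 with h | h
    · exact prSeg_sound hB rfl lab_len lab_lt gs_ok good fl_ok (by norm_num) (by norm_num) p16_6 x (by omega) (by omega)
    exact prSeg_sound hB rfl lab_len lab_lt gs_ok good fl_ok (by norm_num) (by norm_num) p16_12 x (by omega) (by omega)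
  · intro x hx
    rcases Nat.lt_or_ge x 6 with h | h
    · exact prSeg_sound hB rfl lab_len lab_lt gs_ok good fl_ok (by norm_num) (by norm_num) p17_0 x (by omega) (by omega)
    rcases Nat.lt_or_ge x 12 with h | h
    · exact prSeg_sound hB rfl lab_len lab_lt gs_ok good fl_ok (by norm_num) (by norm_num) p17_6 x (by omega) (by omega)
    exact prSeg_sound hB rfl lab_len lab_lt gs_ok good fl_ok (by norm_num) (by norm_num) p17_12 x (by omega) (by omega)
  · intro x hx
    rcases Nat.lt_or_ge x 6 with h | h
    · exact prSeg_sound hB rfl lab_len lab_lt gs_ok good fl_ok (by norm_num) (by norm_num) p18_0 x (by omega) (by omega)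
    rcases Nat.lt_or_ge x 12 with h | h
    · exact prSeg_sound hB rfl lab_len lab_lt gs_ok good fl_ok (by norm_num) (by norm_num) p18_6 x (by omega) (by omega)
    rcases Nat.lt_or_ge x 18 with h | h
    · exact prSeg_sound hB rfl lab_len lab_lt gs_ok good fl_ok (by norm_num) (by norm_num) p18_12 x (by omega) (by omega)
    exact prSeg_sound hB rfl lab_len lab_lt gs_ok good fl_ok (by norm_num) (by norm_num) p18_18 x (by omega) (by omega)
  · intro x hx
    rcases Nat.lt_or_ge x 6 with h | h
    · exact prSeg_sound hB rfl lab_len lab_lt gs_ok good fl_ok (by norm_num) (by norm_num) p19_0 x (by omega) (by omega)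
    rcases Nat.lt_or_ge x 12 with h | h
    · exact prSeg_sound hB rfl lab_len lab_lt gs_ok good fl_ok (by norm_num) (by norm_num) p19_6 x (by omega) (by omega)
    rcases Nat.lt_or_ge x 18 with h | h
    · exact prSeg_sound hB rfl lab_len lab_lt gs_ok good fl_ok (by norm_num) (by norm_num) p19_12 x (by omega) (by omega)
    exact prSeg_sound hB rfl lab_len lab_lt gs_ok good fl_ok (by norm_num) (by norm_num) p19_18 x (by omega) (by omega)
  · intro x hx
    rcases Nat.lt_or_ge x 6 with h | h
    · exact prSeg_sound hB rfl lab_len lab_lt gs_ok good fl_ok (by norm_num) (by norm_num) p20_0 x (by omega) (by omega)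
    rcases Nat.lt_or_ge x 12 with h | h
    · exact prSeg_sound hB rfl lab_len lab_lt gs_ok good fl_ok (by norm_num) (by norm_num) p20_6 x (by omega) (by omega)
    rcases Nat.lt_or_ge x 18 with h | h
    · exact prSeg_sound hB rfl lab_len lab_lt gs_ok good fl_ok (by norm_num) (by norm_num) p20_12 x (by omega) (by omega)
    exact prSeg_sound hB rfl lab_len lab_lt gs_ok good fl_ok (by norm_num) (by norm_num) p20_18 x (by omega) (by omega)
  · intro x hx
    rcases Nat.lt_or_ge x 6 with h | h
    · exact prSeg_sound hB rfl lab_len lab_lt gs_ok good fl_ok (by norm_num) (by norm_num) p21_0 x (by omega) (by omega)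
    rcases Nat.lt_or_ge x 12 with h | h
    · exact prSeg_sound hB rfl lab_len lab_lt gs_ok good fl_ok (by norm_num) (by norm_num) p21_6 x (by omega) (by omega)
    rcases Nat.lt_or_ge x 18 with h | h
    · exact prSeg_sound hB rfl lab_len lab_lt gs_ok good fl_ok (by norm_num) (by norm_num) p21_12 x (by omega) (by omega)
    exact prSeg_sound hB rfl lab_len lab_lt gs_ok good fl_ok (by norm_num) (by norm_num) p21_18 x (by omega) (by omega)
  · intro x hx
    rcases Nat.lt_or_ge x 6 with h | h
    · exact prSeg_sound hB rfl lab_len lab_lt gs_ok good fl_ok (by norm_num) (by norm_num) p22_0 x (by omega) (by omega)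
    rcases Nat.lt_or_ge x 12 with h | h
    · exact prSeg_sound hB rfl lab_len lab_lt gs_ok good fl_ok (by norm_num) (by norm_num) p22_6 x (by omega) (by omega)
    rcases Nat.lt_or_ge x 18 with h | h
    · exact prSeg_sound hB rfl lab_len lab_lt gs_ok good fl_ok (by norm_num) (by norm_num) p22_12 x (by omega) (by omega)
    exact prSeg_sound hB rfl lab_len lab_lt gs_ok good fl_ok (by norm_num) (by norm_num) p22_18 x (by omega) (by omega)
  · intro x hx
    rcases Nat.lt_or_ge x 6 with h | h
    · exact prSeg_sound hB rfl lab_len lab_lt gs_ok good fl_ok (by norm_num) (by norm_num) p23_0 x (by omega) (by omega)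
    rcases Nat.lt_or_ge x 12 with h | h
    · exact prSeg_sound hB rfl lab_len lab_lt gs_ok good fl_ok (by norm_num) (by norm_num) p23_6 x (by omega) (by omega)
    rcases Nat.lt_or_ge x 18 with h | h
    · exact prSeg_sound hB rfl lab_len lab_lt gs_ok good fl_ok (by norm_num) (by norm_num) p23_12 x (by omega) (by omega)
    exact prSeg_sound hB rfl lab_len lab_lt gs_ok good fl_ok (by norm_num) (by norm_num) p23_18 x (by omega) (by omega)
  · intro x hx
    rcases Nat.lt_or_ge x 6 with h | h
    · exact prSeg_sound hB rfl lab_len lab_lt gs_ok good fl_ok (by norm_num) (by norm_num) p24_0 x (by omega) (by omega)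
    rcases Nat.lt_or_ge x 12 with h | h
    · exact prSeg_sound hB rfl lab_len lab_lt gs_ok good fl_ok (by norm_num) (by norm_num) p24_6 x (by omega) (by omega)
    rcases Nat.lt_or_ge x 18 with h | h
    · exact prSeg_sound hB rfl lab_len lab_lt gs_ok good fl_ok (by norm_num) (by norm_num) p24_12 x (by omega) (by omega)
    rcases Nat.lt_or_ge x 24 with h | h
    · exact prSeg_sound hB rfl lab_len lab_lt gs_ok good fl_ok (by norm_num) (by norm_num) p24_18 x (by omega) (by omega)
    exact prSeg_sound hB rfl lab_len lab_lt gs_ok good fl_ok (by norm_num) (by norm_num) p24_24 x (by omega) (by omega)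
  · intro x hx
    rcases Nat.lt_or_ge x 6 with h | h
    · exact prSeg_sound hB rfl lab_len lab_lt gs_ok good fl_ok (by norm_num) (by norm_num) p25_0 x (by omega) (by omega)
    rcases Nat.lt_or_ge x 12 with h | h
    · exact prSeg_sound hB rfl lab_len lab_lt gs_ok good fl_ok (by norm_num) (by norm_num) p25_6 x (by omega) (by omega)
    rcases Nat.lt_or_ge x 18 with h | h
    · exact prSeg_sound hB rfl lab_len lab_lt gs_ok good fl_ok (by norm_num) (by norm_num) p25_12 x (by omega) (by omega)
    rcases Nat.lt_or_ge x 24 with h | h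
    · exact prSeg_sound hB rfl lab_len lab_lt gs_ok good fl_ok (by norm_num) (by norm_num) p25_18 x (by omega) (by omega)
    exact prSeg_sound hB rfl lab_len lab_lt gs_ok good fl_ok (by norm_num) (by norm_num) p25_24 x (by omega) (by omega)
  · intro x hx
    rcases Nat.lt_or_ge x 6 with h | h
    · exact prSeg_sound hB rfl lab_len lab_lt gs_ok good fl_ok (by norm_num) (by norm_num) p26_0 x (by omega) (by omega)
    rcases Nat.lt_or_ge x 12 with h | h
    · exact prSeg_sound hB rfl lab_len lab_lt gs_ok good fl_ok (by norm_num) (by norm_num) p26_6 x (by omega) (by omega)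
    rcases Nat.lt_or_ge x 18 with h | h
    · exact prSeg_sound hB rfl lab_len lab_lt gs_ok good fl_ok (by norm_num) (by norm_num) p26_12 x (by omega) (by omega)
    rcases Nat.lt_or_ge x 24 with h | h
    · exact prSeg_sound hB rfl lab_len lab_lt gs_ok good fl_ok (by norm_num) (by norm_num) p26_18 x (by omega) (by omega)
    exact prSeg_sound hB rfl lab_len lab_lt gs_ok good fl_ok (by norm_num) (by norm_num) p26_24 x (by omega) (by omega)

/-- **There are no seven mutually unbiased bases in dimension six.** -/
theorem no_seven (B : Fin 7 → M6) : ¬ IsMUBs B := fun hB =>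
  final (L := 4) (r := 2) (K := 8) hB rfl lab_len lab_lt gtab_ok inv_ok bs_ok
    (c0 := [7, 7, 7, 7, 7, 7, 7, 7]) rfl (pr_ok hB) es_ok bnd_ok (ch_ok hB) fin_ok

end Vale.Agent.P355.H41.C27
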