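import Vale.Agent.P355.H41.C27.Cls

namespace Vale.Agent.P355.H41.C27

open Vale.Agent.P355.H41.F7 Vale.Agent.P355.H138 Vale.Agent.P355 

theorem good (i : ℕ) : GoodCl 8 (cls i) :=
  clsCk_sound (t := tr) (by decide +kernel) i

end Vale.Agent.P355.H41.C27
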