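import Vale.Agent.P355.H41.F7.Cert

namespace Vale.Agent.P355.H41.C27

open Vale.Agent.P355.H41.F7 Vale.Agent.P355.H138 Vale.Agent.P355 

/-- labels. -/
def lab : List ℕ := [0, 1, 2, 3]

/-- group. -/
def gs : List GD := [
  ⟨[0, 1, 2, 3], [0, 1, 2, 3, 4, 5, 6], false⟩,
  ⟨[0, 1, 3, 2], [0, 1, 3, 2, 4, 5, 6], false⟩,
  ⟨[0, 2, 1, 3], [0, 2, 1, 3, 4, 5, 6], false⟩,
  ⟨[0, 2, 3, 1], [0, 2, 3, 1, 4, 5, 6], false⟩,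
  ⟨[0, 3, 1, 2], [0, 3, 1, 2, 4, 5, 6], false⟩,
  ⟨[0, 3, 2, 1], [0, 3, 2, 1, 4, 5, 6], false⟩,
  ⟨[1, 0, 2, 3], [1, 0, 2, 3, 4, 5, 6], false⟩,
  ⟨[1, 0, 3, 2], [1, 0, 3, 2, 4, 5, 6], false⟩,
  ⟨[1, 2, 0, 3], [1, 2, 0, 3, 4, 5, 6], false⟩,
  ⟨[1, 2, 3, 0], [1, 2, 3, 0, 4, 5, 6], false⟩,
  ⟨[1, 3, 0, 2], [1, 3, 0, 2, 4, 5, 6], false⟩,
  ⟨[1, 3, 2, 0], [1, 3, 2, 0, 4, 5, 6], false⟩,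
  ⟨[2, 0, 1, 3], [2, 0, 1, 3, 4, 5, 6], false⟩,
  ⟨[2, 0, 3, 1], [2, 0, 3, 1, 4, 5, 6], false⟩,
  ⟨[2, 1, 0, 3], [2, 1, 0, 3, 4, 5, 6], false⟩,
  ⟨[2, 1, 3, 0], [2, 1, 3, 0, 4, 5, 6], false⟩,
  ⟨[2, 3, 0, 1], [2, 3, 0, 1, 4, 5, 6], false⟩,
  ⟨[2, 3, 1, 0], [2, 3, 1, 0, 4, 5, 6], false⟩,
  ⟨[3, 0, 1, 2], [3, 0, 1, 2, 4, 5, 6], false⟩,
  ⟨[3, 0, 2, 1], [3, 0, 2, 1, 4, 5, 6], false⟩,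
  ⟨[3, 1, 0, 2], [3, 1, 0, 2, 4, 5, 6], false⟩,
  ⟨[3, 1, 2, 0], [3, 1, 2, 0, 4, 5, 6], false⟩,
  ⟨[3, 2, 0, 1], [3, 2, 0, 1, 4, 5, 6], false⟩,
  ⟨[3, 2, 1, 0], [3, 2, 1, 0, 4, 5, 6], false⟩,
  ⟨[0, 1, 2, 3], [0, 1, 2, 3, 4, 5, 6], true⟩,
  ⟨[0, 1, 3, 2], [0, 1, 3, 2, 4, 5, 6], true⟩,
  ⟨[0, 2, 1, 3], [0, 2, 1, 3, 4, 5, 6], true⟩,
  ⟨[0, 2, 3, 1], [0, 2, 3, 1, 4, 5, 6], true⟩,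
  ⟨[0, 3, 1, 2], [0, 3, 1, 2, 4, 5, 6], true⟩,
  ⟨[0, 3, 2, 1], [0, 3, 2, 1, 4, 5, 6], true⟩,
  ⟨[1, 0, 2, 3], [1, 0, 2, 3, 4, 5, 6], true⟩,
  ⟨[1, 0, 3, 2], [1, 0, 3, 2, 4, 5, 6], true⟩,
  ⟨[1, 2, 0, 3], [1, 2, 0, 3, 4, 5, 6], true⟩,
  ⟨[1, 2, 3, 0], [1, 2, 3, 0, 4, 5, 6], true⟩,
  ⟨[1, 3, 0, 2], [1, 3, 0, 2, 4, 5, 6], true⟩,
  ⟨[1, 3, 2, 0], [1, 3, 2, 0, 4, 5, 6], true⟩,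
  ⟨[2, 0, 1, 3], [2, 0, 1, 3, 4, 5, 6], true⟩,
  ⟨[2, 0, 3, 1], [2, 0, 3, 1, 4, 5, 6], true⟩,
  ⟨[2, 1, 0, 3], [2, 1, 0, 3, 4, 5, 6], true⟩,
  ⟨[2, 1, 3, 0], [2, 1, 3, 0, 4, 5, 6], true⟩,
  ⟨[2, 3, 0, 1], [2, 3, 0, 1, 4, 5, 6], true⟩,
  ⟨[2, 3, 1, 0], [2, 3, 1, 0, 4, 5, 6], true⟩,
  ⟨[3, 0, 1, 2], [3, 0, 1, 2, 4, 5, 6], true⟩,
  ⟨[3, 0, 2, 1], [3, 0, 2, 1, 4, 5, 6], true⟩,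
  ⟨[3, 1, 0, 2], [3, 1, 0, 2, 4, 5, 6], true⟩,
  ⟨[3, 1, 2, 0], [3, 1, 2, 0, 4, 5, 6], true⟩,
  ⟨[3, 2, 0, 1], [3, 2, 0, 1, 4, 5, 6], true⟩,
  ⟨[3, 2, 1, 0], [3, 2, 1, 0, 4, 5, 6], true⟩]

/-- multiplication table. -/
def nu : List (List ℕ) := [
  [0, 1, 2, 3, 4, 5, 6, 7, 8, 9, 10, 11, 12, 13, 14, 15, 16, 17, 18, 19, 20, 21, 22, 23, 24, 25, 26, 27, 28, 29, 30, 31, 32, 33, 34, 35, 36, 37, 38, 39, 40, 41, 42, 43, 44, 45, 46, 47],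
  [1, 0, 4, 5, 2, 3, 7, 6, 10, 11, 8, 9, 18, 19, 20, 21, 22, 23, 12, 13, 14, 15, 16, 17, 25, 24, 28, 29, 26, 27, 31, 30, 34, 35, 32, 33, 42, 43, 44, 45, 46, 47, 36, 37, 38, 39, 40, 41],
  [2, 3, 0, 1, 5, 4, 12, 13, 14, 15, 16, 17, 6, 7, 8, 9, 10, 11, 19, 18, 22, 23, 20, 21, 26, 27, 24, 25, 29, 28, 36, 37, 38, 39, 40, 41, 30, 31, 32, 33, 34, 35, 43, 42, 46, 47, 44, 45],
  [3, 2, 5, 4, 0, 1, 13, 12, 16, 17, 14, 15, 19, 18, 22, 23, 20, 21, 6, 7, 8, 9, 10, 11, 27, 26, 29, 28, 24, 25, 37, 36, 40, 41, 38, 39, 43, 42, 46, 47, 44, 45, 30, 31, 32, 33, 34, 35],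
  [4, 5, 1, 0, 3, 2, 18, 19, 20, 21, 22, 23, 7, 6, 10, 11, 8, 9, 13, 12, 16, 17, 14, 15, 28, 29, 25, 24, 27, 26, 42, 43, 44, 45, 46, 47, 31, 30, 34, 35, 32, 33, 37, 36, 40, 41, 38, 39],
  [5, 4, 3, 2, 1, 0, 19, 18, 22, 23, 20, 21, 13, 12, 16, 17, 14, 15, 7, 6, 10, 11, 8, 9, 29, 28, 27, 26, 25, 24, 43, 42, 46, 47, 44, 45, 37, 36, 40, 41, 38, 39, 31, 30, 34, 35, 32, 33],
  [6, 7, 8, 9, 10, 11, 0, 1, 2, 3, 4, 5, 14, 15, 12, 13, 17, 16, 20, 21, 18, 19, 23, 22, 30, 31, 32, 33, 34, 35, 24, 25, 26, 27, 28, 29, 38, 39, 36, 37, 41, 40, 44, 45, 42, 43, 47, 46],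
  [7, 6, 10, 11, 8, 9, 1, 0, 4, 5, 2, 3, 20, 21, 18, 19, 23, 22, 14, 15, 12, 13, 17, 16, 31, 30, 34, 35, 32, 33, 25, 24, 28, 29, 26, 27, 44, 45, 42, 43, 47, 46, 38, 39, 36, 37, 41, 40],
  [8, 9, 6, 7, 11, 10, 14, 15, 12, 13, 17, 16, 0, 1, 2, 3, 4, 5, 21, 20, 23, 22, 18, 19, 32, 33, 30, 31, 35, 34, 38, 39, 36, 37, 41, 40, 24, 25, 26, 27, 28, 29, 45, 44, 47, 46, 42, 43],
  [9, 8, 11, 10, 6, 7, 15, 14, 17, 16, 12, 13, 21, 20, 23, 22, 18, 19, 0, 1, 2, 3, 4, 5, 33, 32, 35, 34, 30, 31, 39, 38, 41, 40, 36, 37, 45, 44, 47, 46, 42, 43, 24, 25, 26, 27, 28, 29],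
  [10, 11, 7, 6, 9, 8, 20, 21, 18, 19, 23, 22, 1, 0, 4, 5, 2, 3, 15, 14, 17, 16, 12, 13, 34, 35, 31, 30, 33, 32, 44, 45, 42, 43, 47, 46, 25, 24, 28, 29, 26, 27, 39, 38, 41, 40, 36, 37],
  [11, 10, 9, 8, 7, 6, 21, 20, 23, 22, 18, 19, 15, 14, 17, 16, 12, 13, 1, 0, 4, 5, 2, 3, 35, 34, 33, 32, 31, 30, 45, 44, 47, 46, 42, 43, 39, 38, 41, 40, 36, 37, 25, 24, 28, 29, 26, 27],
  [12, 13, 14, 15, 16, 17, 2, 3, 0, 1, 5, 4, 8, 9, 6, 7, 11, 10, 22, 23, 19, 18, 21, 20, 36, 37, 38, 39, 40, 41, 26, 27, 24, 25, 29, 28, 32, 33, 30, 31, 35, 34, 46, 47, 43, 42, 45, 44],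
  [13, 12, 16, 17, 14, 15, 3, 2, 5, 4, 0, 1, 22, 23, 19, 18, 21, 20, 8, 9, 6, 7, 11, 10, 37, 36, 40, 41, 38, 39, 27, 26, 29, 28, 24, 25, 46, 47, 43, 42, 45, 44, 32, 33, 30, 31, 35, 34],
  [14, 15, 12, 13, 17, 16, 8, 9, 6, 7, 11, 10, 2, 3, 0, 1, 5, 4, 23, 22, 21, 20, 19, 18, 38, 39, 36, 37, 41, 40, 32, 33, 30, 31, 35, 34, 26, 27, 24, 25, 29, 28, 47, 46, 45, 44, 43, 42],
  [15, 14, 17, 16, 12, 13, 9, 8, 11, 10, 6, 7, 23, 22, 21, 20, 19, 18, 2, 3, 0, 1, 5, 4, 39, 38, 41, 40, 36, 37, 33, 32, 35, 34, 30, 31, 47, 46, 45, 44, 43, 42, 26, 27, 24, 25, 29, 28],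
  [16, 17, 13, 12, 15, 14, 22, 23, 19, 18, 21, 20, 3, 2, 5, 4, 0, 1, 9, 8, 11, 10, 6, 7, 40, 41, 37, 36, 39, 38, 46, 47, 43, 42, 45, 44, 27, 26, 29, 28, 24, 25, 33, 32, 35, 34, 30, 31],
  [17, 16, 15, 14, 13, 12, 23, 22, 21, 20, 19, 18, 9, 8, 11, 10, 6, 7, 3, 2, 5, 4, 0, 1, 41, 40, 39, 38, 37, 36, 47, 46, 45, 44, 43, 42, 33, 32, 35, 34, 30, 31, 27, 26, 29, 28, 24, 25],
  [18, 19, 20, 21, 22, 23, 4, 5, 1, 0, 3, 2, 10, 11, 7, 6, 9, 8, 16, 17, 13, 12, 15, 14, 42, 43, 44, 45, 46, 47, 28, 29, 25, 24, 27, 26, 34, 35, 31, 30, 33, 32, 40, 41, 37, 36, 39, 38],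
  [19, 18, 22, 23, 20, 21, 5, 4, 3, 2, 1, 0, 16, 17, 13, 12, 15, 14, 10, 11, 7, 6, 9, 8, 43, 42, 46, 47, 44, 45, 29, 28, 27, 26, 25, 24, 40, 41, 37, 36, 39, 38, 34, 35, 31, 30, 33, 32],
  [20, 21, 18, 19, 23, 22, 10, 11, 7, 6, 9, 8, 4, 5, 1, 0, 3, 2, 17, 16, 15, 14, 13, 12, 44, 45, 42, 43, 47, 46, 34, 35, 31, 30, 33, 32, 28, 29, 25, 24, 27, 26, 41, 40, 39, 38, 37, 36],
  [21, 20, 23, 22, 18, 19, 11, 10, 9, 8, 7, 6, 17, 16, 15, 14, 13, 12, 4, 5, 1, 0, 3, 2, 45, 44, 47, 46, 42, 43, 35, 34, 33, 32, 31, 30, 41, 40, 39, 38, 37, 36, 28, 29, 25, 24, 27, 26],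
  [22, 23, 19, 18, 21, 20, 16, 17, 13, 12, 15, 14, 5, 4, 3, 2, 1, 0, 11, 10, 9, 8, 7, 6, 46, 47, 43, 42, 45, 44, 40, 41, 37, 36, 39, 38, 29, 28, 27, 26, 25, 24, 35, 34, 33, 32, 31, 30],
  [23, 22, 21, 20, 19, 18, 17, 16, 15, 14, 13, 12, 11, 10, 9, 8, 7, 6, 5, 4, 3, 2, 1, 0, 47, 46, 45, 44, 43, 42, 41, 40, 39, 38, 37, 36, 35, 34, 33, 32, 31, 30, 29, 28, 27, 26, 25, 24],
  [24, 25, 26, 27, 28, 29, 30, 31, 32, 33, 34, 35, 36, 37, 38, 39, 40, 41, 42, 43, 44, 45, 46, 47, 0, 1, 2, 3, 4, 5, 6, 7, 8, 9, 10, 11, 12, 13, 14, 15, 16, 17, 18, 19, 20, 21, 22, 23],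
  [25, 24, 28, 29, 26, 27, 31, 30, 34, 35, 32, 33, 42, 43, 44, 45, 46, 47, 36, 37, 38, 39, 40, 41, 1, 0, 4, 5, 2, 3, 7, 6, 10, 11, 8, 9, 18, 19, 20, 21, 22, 23, 12, 13, 14, 15, 16, 17],
  [26, 27, 24, 25, 29, 28, 36, 37, 38, 39, 40, 41, 30, 31, 32, 33, 34, 35, 43, 42, 46, 47, 44, 45, 2, 3, 0, 1, 5, 4, 12, 13, 14, 15, 16, 17, 6, 7, 8, 9, 10, 11, 19, 18, 22, 23, 20, 21],
  [27, 26, 29, 28, 24, 25, 37, 36, 40, 41, 38, 39, 43, 42, 46, 47, 44, 45, 30, 31, 32, 33, 34, 35, 3, 2, 5, 4, 0, 1, 13, 12, 16, 17, 14, 15, 19, 18, 22, 23, 20, 21, 6, 7, 8, 9, 10, 11],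
  [28, 29, 25, 24, 27, 26, 42, 43, 44, 45, 46, 47, 31, 30, 34, 35, 32, 33, 37, 36, 40, 41, 38, 39, 4, 5, 1, 0, 3, 2, 18, 19, 20, 21, 22, 23, 7, 6, 10, 11, 8, 9, 13, 12, 16, 17, 14, 15],
  [29, 28, 27, 26, 25, 24, 43, 42, 46, 47, 44, 45, 37, 36, 40, 41, 38, 39, 31, 30, 34, 35, 32, 33, 5, 4, 3, 2, 1, 0, 19, 18, 22, 23, 20, 21, 13, 12, 16, 17, 14, 15, 7, 6, 10, 11, 8, 9],
  [30, 31, 32, 33, 34, 35, 24, 25, 26, 27, 28, 29, 38, 39, 36, 37, 41, 40, 44, 45, 42, 43, 47, 46, 6, 7, 8, 9, 10, 11, 0, 1, 2, 3, 4, 5, 14, 15, 12, 13, 17, 16, 20, 21, 18, 19, 23, 22],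
  [31, 30, 34, 35, 32, 33, 25, 24, 28, 29, 26, 27, 44, 45, 42, 43, 47, 46, 38, 39, 36, 37, 41, 40, 7, 6, 10, 11, 8, 9, 1, 0, 4, 5, 2, 3, 20, 21, 18, 19, 23, 22, 14, 15, 12, 13, 17, 16],
  [32, 33, 30, 31, 35, 34, 38, 39, 36, 37, 41, 40, 24, 25, 26, 27, 28, 29, 45, 44, 47, 46, 42, 43, 8, 9, 6, 7, 11, 10, 14, 15, 12, 13, 17, 16, 0, 1, 2, 3, 4, 5, 21, 20, 23, 22, 18, 19],
  [33, 32, 35, 34, 30, 31, 39, 38, 41, 40, 36, 37, 45, 44, 47, 46, 42, 43, 24, 25, 26, 27, 28, 29, 9, 8, 11, 10, 6, 7, 15, 14, 17, 16, 12, 13, 21, 20, 23, 22, 18, 19, 0, 1, 2, 3, 4, 5],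
  [34, 35, 31, 30, 33, 32, 44, 45, 42, 43, 47, 46, 25, 24, 28, 29, 26, 27, 39, 38, 41, 40, 36, 37, 10, 11, 7, 6, 9, 8, 20, 21, 18, 19, 23, 22, 1, 0, 4, 5, 2, 3, 15, 14, 17, 16, 12, 13],
  [35, 34, 33, 32, 31, 30, 45, 44, 47, 46, 42, 43, 39, 38, 41, 40, 36, 37, 25, 24, 28, 29, 26, 27, 11, 10, 9, 8, 7, 6, 21, 20, 23, 22, 18, 19, 15, 14, 17, 16, 12, 13, 1, 0, 4, 5, 2, 3],
  [36, 37, 38, 39, 40, 41, 26, 27, 24, 25, 29, 28, 32, 33, 30, 31, 35, 34, 46, 47, 43, 42, 45, 44, 12, 13, 14, 15, 16, 17, 2, 3, 0, 1, 5, 4, 8, 9, 6, 7, 11, 10, 22, 23, 19, 18, 21, 20],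
  [37, 36, 40, 41, 38, 39, 27, 26, 29, 28, 24, 25, 46, 47, 43, 42, 45, 44, 32, 33, 30, 31, 35, 34, 13, 12, 16, 17, 14, 15, 3, 2, 5, 4, 0, 1, 22, 23, 19, 18, 21, 20, 8, 9, 6, 7, 11, 10],
  [38, 39, 36, 37, 41, 40, 32, 33, 30, 31, 35, 34, 26, 27, 24, 25, 29, 28, 47, 46, 45, 44, 43, 42, 14, 15, 12, 13, 17, 16, 8, 9, 6, 7, 11, 10, 2, 3, 0, 1, 5, 4, 23, 22, 21, 20, 19, 18],
  [39, 38, 41, 40, 36, 37, 33, 32, 35, 34, 30, 31, 47, 46, 45, 44, 43, 42, 26, 27, 24, 25, 29, 28, 15, 14, 17, 16, 12, 13, 9, 8, 11, 10, 6, 7, 23, 22, 21, 20, 19, 18, 2, 3, 0, 1, 5, 4],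
  [40, 41, 37, 36, 39, 38, 46, 47, 43, 42, 45, 44, 27, 26, 29, 28, 24, 25, 33, 32, 35, 34, 30, 31, 16, 17, 13, 12, 15, 14, 22, 23, 19, 18, 21, 20, 3, 2, 5, 4, 0, 1, 9, 8, 11, 10, 6, 7],
  [41, 40, 39, 38, 37, 36, 47, 46, 45, 44, 43, 42, 33, 32, 35, 34, 30, 31, 27, 26, 29, 28, 24, 25, 17, 16, 15, 14, 13, 12, 23, 22, 21, 20, 19, 18, 9, 8, 11, 10, 6, 7, 3, 2, 5, 4, 0, 1],
  [42, 43, 44, 45, 46, 47, 28, 29, 25, 24, 27, 26, 34, 35, 31, 30, 33, 32, 40, 41, 37, 36, 39, 38, 18, 19, 20, 21, 22, 23, 4, 5, 1, 0, 3, 2, 10, 11, 7, 6, 9, 8, 16, 17, 13, 12, 15, 14],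
  [43, 42, 46, 47, 44, 45, 29, 28, 27, 26, 25, 24, 40, 41, 37, 36, 39, 38, 34, 35, 31, 30, 33, 32, 19, 18, 22, 23, 20, 21, 5, 4, 3, 2, 1, 0, 16, 17, 13, 12, 15, 14, 10, 11, 7, 6, 9, 8],
  [44, 45, 42, 43, 47, 46, 34, 35, 31, 30, 33, 32, 28, 29, 25, 24, 27, 26, 41, 40, 39, 38, 37, 36, 20, 21, 18, 19, 23, 22, 10, 11, 7, 6, 9, 8, 4, 5, 1, 0, 3, 2, 17, 16, 15, 14, 13, 12],
  [45, 44, 47, 46, 42, 43, 35, 34, 33, 32, 31, 30, 41, 40, 39, 38, 37, 36, 28, 29, 25, 24, 27, 26, 21, 20, 23, 22, 18, 19, 11, 10, 9, 8, 7, 6, 17, 16, 15, 14, 13, 12, 4, 5, 1, 0, 3, 2],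
  [46, 47, 43, 42, 45, 44, 40, 41, 37, 36, 39, 38, 29, 28, 27, 26, 25, 24, 35, 34, 33, 32, 31, 30, 22, 23, 19, 18, 21, 20, 16, 17, 13, 12, 15, 14, 5, 4, 3, 2, 1, 0, 11, 10, 9, 8, 7, 6],
  [47, 46, 45, 44, 43, 42, 41, 40, 39, 38, 37, 36, 35, 34, 33, 32, 31, 30, 29, 28, 27, 26, 25, 24, 23, 22, 21, 20, 19, 18, 17, 16, 15, 14, 13, 12, 11, 10, 9, 8, 7, 6, 5, 4, 3, 2, 1, 0]]

/-- inverses. -/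
def inv : List ℕ := [0, 1, 2, 4, 3, 5, 6, 7, 12, 18, 13, 19, 8, 10, 14, 20, 16, 22, 9, 11, 15, 21, 17, 23, 24, 25, 26, 28, 27, 29, 30, 31, 36, 42, 37, 43, 32, 34, 38, 44, 40, 46, 33, 35, 39, 45, 41, 47]

/-- flags. -/
def fl : List FD := [
  ⟨true, [0, 0], [(0, 2, 1), (0, 3, -1), (2, 3, 1)]⟩,
  ⟨false, [0, 0], [(0, 1, 1), (0, 3, -1), (1, 2, 1), (2, 3, 1)]⟩,
  ⟨false, [0, 0], []⟩,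
  ⟨false, [0, 0], [(0, 1, 1), (0, 2, 1), (0, 3, -2), (1, 3, 1), (2, 3, 1)]⟩,
  ⟨true, [0, 0], [(0, 1, 1), (0, 2, 1), (0, 3, -2), (1, 2, 1), (2, 3, 2)]⟩,
  ⟨false, [0, 0], [(1, 2, 1), (1, 3, 1), (1, 4, -2), (2, 4, 1), (3, 4, 1)]⟩,
  ⟨true, [0, 0], [(0, 1, -1), (0, 2, 1), (1, 3, 1), (1, 4, -2), (2, 4, 1), (3, 4, 1)]⟩,
  ⟨true, [0, 0], [(1, 2, 2), (1, 4, -2), (2, 3, 1), (2, 4, 1), (3, 4, 1)]⟩,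
  ⟨false, [0, 0], [(0, 1, -1), (0, 2, 1), (1, 2, 1), (1, 4, -2), (2, 3, 1), (2, 4, 1), (3, 4, 1)]⟩,
  ⟨true, [0, 0], [(1, 2, 1), (1, 3, 1), (1, 4, -2), (2, 3, 1), (3, 4, 2)]⟩,
  ⟨false, [0, 0], [(0, 2, 2), (0, 3, -2), (2, 3, 2)]⟩,
  ⟨false, [0, 0], [(1, 3, 2), (1, 4, -2), (3, 4, 2)]⟩,
  ⟨false, [0, 1], [(0, 2, 1), (0, 5, -1), (2, 3, 1), (2, 4, 1), (2, 5, -1), (3, 4, 1), (4, 5, 2)]⟩,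
  ⟨true, [0, 0], [(0, 1, -1), (0, 3, 1), (1, 3, 1), (1, 4, -2), (3, 4, 2)]⟩,
  ⟨false, [0, 1], [(0, 2, 1), (0, 5, -1), (2, 4, 2), (2, 5, -1), (3, 4, -1), (3, 5, 1), (4, 5, 1)]⟩,
  ⟨true, [0, 1], [(2, 3, 1), (2, 4, 1), (2, 5, -2), (3, 4, 1), (4, 5, 2)]⟩,
  ⟨true, [0, 1], [(0, 2, 1), (0, 5, -1), (2, 4, 2), (2, 5, -1), (4, 5, 2)]⟩,
  ⟨true, [0, 1], [(0, 3, 1), (0, 5, -1), (2, 4, 1), (2, 5, -1), (3, 4, 1), (4, 5, 2)]⟩,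
  ⟨false, [0, 1], [(0, 1, 1), (0, 5, -1), (1, 4, 1), (2, 4, 1), (2, 5, -1), (3, 4, -1), (3, 5, 1), (4, 5, 1)]⟩,
  ⟨false, [0, 0], [(0, 1, -1), (0, 3, 1), (1, 2, 1), (1, 4, -2), (2, 3, 1), (3, 4, 2)]⟩,
  ⟨false, [0, 0], [(0, 2, 1), (0, 3, -1), (1, 3, 2), (1, 4, -2), (2, 4, 1), (3, 4, 1)]⟩,
  ⟨false, [0, 1], [(0, 1, 1), (0, 5, -1), (1, 4, 1), (2, 4, -1), (2, 5, 1), (3, 4, -1), (3, 5, 1), (4, 5, -1)]⟩,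
  ⟨true, [0, 1], [(2, 4, 2), (2, 5, -2), (3, 4, -1), (3, 5, 1), (4, 5, 1)]⟩,
  ⟨true, [0, 1], [(0, 1, 1), (0, 5, -1), (1, 4, 1), (2, 4, 1), (2, 5, -1), (4, 5, 2)]⟩,
  ⟨false, [0, 1], [(0, 2, 1), (0, 5, -1), (1, 2, -1), (1, 4, 1), (2, 4, 1), (2, 5, -1), (4, 5, 2)]⟩,
  ⟨false, [0, 0], [(0, 1, -2), (0, 2, 1), (0, 3, 1), (1, 4, -2), (2, 4, 1), (3, 4, 1)]⟩,
  ⟨false, [0, 1], [(0, 1, 1), (0, 5, -1), (1, 3, 1), (2, 4, 1), (2, 5, -1), (3, 4, 1), (4, 5, 2)]⟩]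

theorem lab_len : lab.length = 4 := rfl

theorem lab_lt : allLt 7 lab = true := by decide +kernel

theorem gtab_ok : gtabCk 7 4 48 lab gs nu = true := by decide +kernel

theorem inv_ok : invCk 7 4 48 gs inv = true := by decide +kernel

theorem gs_ok : ((List.range 48).all fun i => (gat gs i).ok 7 4 lab) = true := by decide +kernel

theorem fl_ok : flCk 7 4 2 27 lab fl = true := by decide +kernel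

end Vale.Agent.P355.H41.C27
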